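import Vale.Agent.P330.W.H632.Tst
import Vale.Agent.P330.S.Loop
import Vale.Agent.P330.S.Germ
import Vale.Agent.P330.S.SoundSeq

/-!
# Soundness of networks of blocks

Multiplexers, the record for the loop and the theorem `bsound`.
-/

namespace Vale.Agent.P330.H551

open Finset PCP.AR Filter Topology
open S (BitDef MDef Sem IsB Tst Ctl target ThOK TfOK HoldAt FollowAt SeqCore aef ae_iff ae_of_le
  ae_of_small ae_pr_lt ae_fst ae_fiber pr_fiber)

variable {N : BSpec}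

namespace BLim

variable {A : BLim N}

/-! ### Values of the control bits -/

theorem th_s_lt (h : A.qs 2 < 1 / 6) : ∀ᶠ ω in A.F, IsB (A.ε ω.1) false (A.v (.th 2 0) ω) :=
  A.th_false (i := 2) (l := 0) (by
    have : A.av (.q 2) < 1 / 6 := h
    norm_num
    linarith)

theorem th_s_gt (h : 1 / 6 < A.qs 2) : ∀ᶠ ω in A.F, IsB (A.ε ω.1) true (A.v (.th 2 0) ω) :=
  A.th_true (i := 2) (l := 0) (by
    have : 1 / 6 < A.av (.q 2) := h
    norm_num
    linarith)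

theorem th_a_lt (h : A.qs 0 < 1 / 2) : ∀ᶠ ω in A.F, IsB (A.ε ω.1) false (A.v (.th 0 2) ω) :=
  A.th_false (i := 0) (l := 2) (by
    have : A.av (.q 0) < 1 / 2 := h
    norm_num
    linarith)

theorem th_a_gt (h : 1 / 2 < A.qs 0) : ∀ᶠ ω in A.F, IsB (A.ε ω.1) true (A.v (.th 0 2) ω) :=
  A.th_true (i := 0) (l := 2) (by
    have : 1 / 2 < A.av (.q 0) := h
    norm_num
    linarith)

theorem th_hold {z : Bool} (h : HoldAt A.qs z) : ∀ᶠ ω in A.F,
    IsB (A.ε ω.1) z (A.v (.th 1 (if z then 1 else 3)) ω) := by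
  cases z with
  | false =>
    have h' : A.av (.q 1) < 2 / 3 := h
    exact A.th_false (i := 1) (l := 3) (by
      norm_num
      linarith)
  | true =>
    have h' : 1 / 3 < A.av (.q 1) := h
    exact A.th_true (i := 1) (l := 1) (by
      norm_num
      linarith)

theorem th_follow {z : Bool} (h : FollowAt A.qs z) : ∀ᶠ ω in A.F,
    IsB (A.ε ω.1) (!z) (A.v (.th 1 (if z then 1 else 3)) ω) := by
  cases z with
  | false =>
    have h' : 2 / 3 < A.av (.q 1) := h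
    exact A.th_true (i := 1) (l := 3) (by
      norm_num
      linarith)
  | true =>
    have h' : A.av (.q 1) < 1 / 3 := h
    exact A.th_false (i := 1) (l := 1) (by
      norm_num
      linarith)

/-! ### Codes -/

theorem srt_pre (z : Bool) (w : A.Cfg) : ∀ᶠ ω in A.F, A.SRt (.pre z) w ω →
    A.SRt (.x z) w ω ∧ A.SRt (.lo z) w ω ∧ A.SRt (.hi z) w ω := by
  filter_upwards [A.thr_pre z] with ω g1 g2
  exact ⟨fun l => (g1 l _ (g2 l)).1, fun l => (g1 l _ (g2 l)).2.1, fun l => (g1 l _ (g2 l)).2.2⟩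

theorem codes_transfer {ρ : ℝ} (hρ : 0 < ρ) (Z Y : Finset Bool) (w w' : Bool → A.Cfg)
    {z : Bool} {v : A.Cfg}
    (H : ∀ᶠ ω in A.F, (∀ z ∈ Z, A.SRt (hN z) (w z) ω) → (∀ z ∈ Y, A.SRt (aN z) (w' z) ω) →
      A.SRt (.pre z) v ω) (hZ : ∀ z ∈ Z, A.Cln ρ (hN z) (w z))
    (hY : ∀ z ∈ Y, A.Cln ρ (aN z) (w' z)) : A.Codes ρ z v := by
  refine ⟨cln_transfer hρ Z Y w w' ?_ hZ hY, cln_transfer hρ Z Y w w' ?_ hZ hY,
    cln_transfer hρ Z Y w w' ?_ hZ hY⟩
  · filter_upwards [H, srt_pre z v] with ω g1 g2 g3 g4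
    exact (g2 (g1 g3 g4)).1
  · filter_upwards [H, srt_pre z v] with ω g1 g2 g3 g4
    exact (g2 (g1 g3 g4)).2.1
  · filter_upwards [H, srt_pre z v] with ω g1 g2 g3 g4
    exact (g2 (g1 g3 g4)).2.2

theorem codes_joint {ρ : ℝ} (P : A.Par ρ) (Z Y : Finset Bool) (hYZ : Y ⊆ Z) (w : Bool → A.Cfg)
    (hv : ∀ z ∈ Y, ∀ᶠ n in (A.U : Filter ℕ), (A.I n).sys.Valid (w z n))
    {ρ' : ℝ} (hρ' : ρ' ≤ A.c.ρ₁ / 2) (hn : ∀ z ∈ Z, A.Nr ρ' z (w z))
    (H : ∀ z ∈ Z, ∀ᶠ ω in A.F, (∀ z' ∈ Z, A.SRt (hN z') (w z') ω) →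
      (∀ z' ∈ Y, A.SRt (aN z') (A.stp z' (w z')) ω) → A.SRt (.pre z) (w z) ω) :
    ∀ z ∈ Z, A.Codes ρ z (w z) := by
  have h1 : ∀ z ∈ Z, A.Cln (5 * ρ) (.x z) (w z) := by
    refine joint P Z Y hYZ w hv (fun z hz => (hn z hz).mono fun n hn => hn.trans hρ') ?_
    intro z hz
    filter_upwards [H z hz, srt_pre z (w z)] with ω g1 g2 g3 g4
    exact (g2 (g1 g3 g4)).1
  intro z hz
  exact codes_transfer P.ρ_pos Z Y w (fun z => A.stp z (w z)) (H z hz)
    (fun z' hz' => hN_cln P (h1 z' hz')) fun z' hz' => aN_cln P (hv z' hz') (h1 z' (hYZ hz'))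

/-! ### Multiplexers -/

theorem rel_pre (z : Bool) : ∀ᶠ ω in A.F, ∀ l : N.L,
    (bnet N A.τ (.pre z l)).Rel (A.I ω.1).sem (A.ε ω.1) (A.lam ω.1) (A.x ω.1) (.pre z l) ω.2 := by
  rw [eventually_all]
  exact fun l => A.rel (.pre z l)

theorem m_start {ρ : ℝ} (hρ : 0 < ρ) (h : A.qs 2 < 1 / 6) (z : Bool) :
    A.Codes ρ z fun n => (A.I n).sys.w0 := by
  refine codes_transfer hρ ∅ ∅ (fun _ n => (A.I n).sys.w0) (fun _ n => (A.I n).sys.w0) ?_
    (fun z hz => absurd hz (Finset.notMem_empty z)) fun z hz => absurd hz (Finset.notMem_empty z)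
  filter_upwards [rel_pre z, th_s_lt h] with ω g1 g2 _ _ l
  exact mux_pt (g1 l) _ (Or.inr rfl) (Or.inl g2) (Or.inl g2) (Or.inl g2)

theorem m_hold0 {ρ ρ' : ℝ} (P : A.Par ρ) (hρ' : ρ' ≤ A.c.ρ₁ / 2) {z : Bool}
    (hz : HoldAt A.qs z) (h : A.Nr ρ' z fun n => (A.I n).sys.w0) :
    A.Codes ρ z fun n => (A.I n).sys.w0 := by
  refine codes_joint P {z} ∅ (Finset.empty_subset _) (fun _ n => (A.I n).sys.w0)
    (fun z hz => absurd hz (Finset.notMem_empty z)) hρ'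
    (fun z' hz' => by rw [Finset.mem_singleton.1 hz']; exact h) (fun z' hz' => ?_) z
    (Finset.mem_singleton_self z)
  rw [Finset.mem_singleton.1 hz']
  filter_upwards [rel_pre z, th_hold hz] with ω g1 g2 g3 _ l
  exact mux_pt (g1 l) _ (Or.inr rfl)
    (Or.inr (Or.inr (g3 z (Finset.mem_singleton_self z) l))) (Or.inr (Or.inl g2))
    (Or.inr (Or.inl g2))

theorem m_hold {ρ ρ' : ℝ} (P : A.Par ρ) (hρ' : ρ' ≤ A.c.ρ₁ / 2) (hs : 1 / 6 < A.qs 2)
    {z : Bool} {w : A.Cfg} (hz : HoldAt A.qs z) (h : A.Nr ρ' z w) : A.Codes ρ z w := by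
  refine codes_joint P {z} ∅ (Finset.empty_subset _) (fun _ => w)
    (fun z hz => absurd hz (Finset.notMem_empty z)) hρ'
    (fun z' hz' => by rw [Finset.mem_singleton.1 hz']; exact h) (fun z' hz' => ?_) z
    (Finset.mem_singleton_self z)
  rw [Finset.mem_singleton.1 hz']
  filter_upwards [rel_pre z, th_s_gt hs, th_hold hz] with ω g1 g0 g2 g3 _ l
  exact mux_pt (g1 l) _ (Or.inl g0)
    (Or.inr (Or.inr (g3 z (Finset.mem_singleton_self z) l))) (Or.inr (Or.inl g2))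
    (Or.inr (Or.inl g2))

theorem m_copy {ρ : ℝ} (P : A.Par ρ) (hs : 1 / 6 < A.qs 2) (ha : A.qs 0 < 1 / 2) {z : Bool}
    {w : A.Cfg} (hz : FollowAt A.qs z) (h : A.Codes ρ (!z) w) : A.Codes ρ z w := by
  refine codes_transfer P.ρ_pos {!z} ∅ (fun _ => w) (fun _ => w) ?_
    (fun z' hz' => by rw [Finset.mem_singleton.1 hz']; exact hN_cln P h.1)
    fun z hz => absurd hz (Finset.notMem_empty z)
  filter_upwards [rel_pre z, th_s_gt hs, th_follow hz, th_a_lt ha] with ω g1 g0 g2 g3 g4 _ l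
  exact mux_pt (g1 l) _ (Or.inl g0) (Or.inr (Or.inl g2))
    (Or.inr (Or.inr (Or.inr (g4 _ (Finset.mem_singleton_self _) l))))
    (Or.inr (Or.inr (Or.inl g3)))

theorem m_step {ρ : ℝ} (P : A.Par ρ) (hs : 1 / 6 < A.qs 2) (ha : 1 / 2 < A.qs 0)
    {z : Bool} {w : A.Cfg} (hz : FollowAt A.qs z)
    (hw : ∀ᶠ n in (A.U : Filter ℕ), (A.I n).sys.Valid (w n)) (h : A.Codes ρ (!z) w) :
    A.Codes ρ z (A.stp (!z) w) := by
  refine codes_transfer P.ρ_pos ∅ {!z} (fun _ => w) (fun _ => A.stp (!z) w) ?_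
    (fun z hz => absurd hz (Finset.notMem_empty z))
    (fun z' hz' => by rw [Finset.mem_singleton.1 hz']; exact aN_cln P hw h.1)
  filter_upwards [rel_pre z, th_s_gt hs, th_follow hz, th_a_gt ha] with ω g1 g0 g2 g3 _ g4 l
  exact mux_pt (g1 l) _ (Or.inl g0) (Or.inr (Or.inl g2))
    (Or.inr (Or.inr (Or.inl g3)))
    (Or.inr (Or.inr (Or.inr (g4 _ (Finset.mem_singleton_self _) l))))

theorem m_both {ρ ρ' : ℝ} (P : A.Par ρ) (hρ' : ρ' ≤ A.c.ρ₁ / 2) (hs : 1 / 6 < A.qs 2)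
    (ha : A.qs 0 < 1 / 2) {w : A.Cfg} (h1 : A.Nr ρ' false w) (h2 : A.Nr ρ' true w) :
    A.Codes ρ false w ∧ A.Codes ρ true w := by
  have key : ∀ z ∈ ({false, true} : Finset Bool), A.Codes ρ z w := by
    refine codes_joint P {false, true} ∅ (Finset.empty_subset _) (fun _ => w)
      (fun z hz => absurd hz (Finset.notMem_empty z)) hρ' (fun z _ => ?_) fun z _ => ?_
    · cases z
      · exact h1
      · exact h2
    · filter_upwards [rel_pre z, th_s_gt hs, th_a_lt ha] with ω g1 g2 g3 g4 _ l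
      have e1 := g4 z (by cases z <;> simp) l
      have e2 := g4 (!z) (by cases z <;> simp) l
      exact mux_pt (g1 l) _ (Or.inl g2) (Or.inr (Or.inr e1))
          (Or.inr (Or.inr (Or.inr e2))) (Or.inr (Or.inr (Or.inl g3)))
  exact ⟨key false (by simp), key true (by simp)⟩

/-- Words of configurations that are equal for almost all `n`. -/
theorem srt_congr {f : N.L → BReg N} {w w' : A.Cfg}
    (h : ∀ᶠ n in (A.U : Filter ℕ), w n = w' n) : ∀ᶠ ω in A.F, A.SRt f w ω → A.SRt f w' ω := by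
  have h1 := ae_fst (Ω := fun n => (A.I n).Om × ((A.I n).P × (A.I n).Z))
    (Q := fun n => w n = w' n) h
  filter_upwards [h1] with ω g1 g2
  unfold SRt at g2 ⊢
  rw [← g1]
  exact g2

theorem m_link {ρ ρ' : ℝ} (P : A.Par ρ) (hρ' : ρ' ≤ A.c.ρ₁ / 2) (hs : 1 / 6 < A.qs 2)
    (ha : 1 / 2 < A.qs 0)
    {w w' : A.Cfg} (hw : ∀ᶠ n in (A.U : Filter ℕ), (A.I n).sys.Valid (w n))
    (hw' : ∀ᶠ n in (A.U : Filter ℕ), (A.I n).sys.Valid (w' n))
    (e1 : ∀ᶠ n in (A.U : Filter ℕ), A.stp false w n = w' n)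
    (e2 : ∀ᶠ n in (A.U : Filter ℕ), A.stp true w' n = w n)
    (h1 : A.Nr ρ' false w) (h2 : A.Nr ρ' true w') :
    A.Codes ρ false w ∧ A.Codes ρ true w' := by
  have key : ∀ z ∈ ({false, true} : Finset Bool), A.Codes ρ z (if z then w' else w) := by
    refine codes_joint P {false, true} {false, true} (Finset.Subset.refl _)
      (fun z => if z then w' else w) (fun z _ => ?_) hρ' (fun z _ => ?_) fun z _ => ?_
    · cases z
      · exact hw
      · exact hw'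
    · cases z
      · exact h1
      · exact h2
    · filter_upwards [rel_pre z, th_s_gt hs, th_a_gt ha, srt_congr (A := A) (f := aN false) e1,
        srt_congr (A := A) (f := aN true) e2] with ω g1 g2 g3 g4 g5 g6 g7 l
      have r1 := g6 z (by cases z <;> simp) l
      have r2 : A.SRt (aN false) w' ω := g4 (g7 false (by simp))
      have r3 : A.SRt (aN true) w ω := g5 (g7 true (by simp))
      cases z
      · exact mux_pt (g1 l) _ (Or.inl g2) (Or.inr (Or.inr r1))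
          (Or.inr (Or.inr (Or.inl g3))) (Or.inr (Or.inr (Or.inr (r3 l))))
      · exact mux_pt (g1 l) _ (Or.inl g2) (Or.inr (Or.inr r1))
          (Or.inr (Or.inr (Or.inl g3))) (Or.inr (Or.inr (Or.inr (r2 l))))
  exact ⟨key false (by simp), key true (by simp)⟩

/-! ### The record for the loop -/

/-- No solution is revealed. -/
def NoSol (I : BInst N) (ε ρin ρ₀ : ℝ) (x : BReg N → I.Site → ℝ) : Prop :=
  (∀ w, I.sys.Valid w → I.Near ε ρin ρ₀ x false w → I.sys.Valid (I.sys.step false w)) ∧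
    ∀ w, I.sys.Valid w → w ≠ I.sys.w0 → I.Near ε ρin ρ₀ x true w →
      I.sys.Valid (I.sys.step true w)

/-- The record for the loop. -/
noncomputable def toSeq (A : BLim N) {Q : BInst N → Prop} (hQ : ∀ n, Q (A.I n))
    {ρ ρ' ρ₀ ra rb : ℝ} (P : A.Par ρ) (hρ' : 0 < ρ') (hρ₁ : ρ' ≤ A.c.ρ₁ / 2) (hρ₀ : ρ' ≤ ρ₀)
    (hτ : 0 < A.τ) (hrb0 : 0 ≤ rb) (hrb : rb ≤ 1 / 2) (hra : 5 * ρ ≤ ra)
    (h1 : rb + 10 * ρ < A.τ)
    (h2 : (A.τ : ℝ) < (A.c.θin - 2 * A.c.ρin) * (A.c.θ - 2 * ρ'))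
    (hκ : N.k * (6 * A.τ / A.c.κin + A.τ) + 7 * A.τ ≤ A.c.κ ρ')
    (Hf : CheckFlag N Q A.c.ρin A.c.κin) (Hr : CheckReject N Q A.c.ρin rb)
    (Ha : CheckAccept N Q ra rb)
    (hN : ∀ n, NoSol (A.I n) (A.ε n) A.c.ρin ρ₀ (A.x n)) : SeqCore where
  U := A.U
  Cf n := (A.I n).Cf
  Val n := (A.I n).sys.Valid
  w0 n := (A.I n).sys.w0
  step n z := (A.I n).sys.step z
  τ := A.τ
  τ_pos := by exact_mod_cast hτ
  q := A.qs
  q_mem i := A.av_mem _
  T := A.Ts
  Codes := A.Codes ρ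
  Nr := A.Nr ρ'
  codes_congr _ _ _ h hc := Codes.congr h hc
  nr_congr _ _ _ h hc := Nr.congr h hc
  valid0 n := (A.facts n).dyn.valid0
  inv n := (A.facts n).dyn.inv
  start n := (A.facts n).dyn.start
  codes_near _ _ h := h.nr P.ρ_le hρ'
  T_sound z h := by
    classical
    have h5 := T_sound (A := A) hQ Hf Hr hrb hτ hρ' hκ z (av_le_of_Ts h)
    refine ⟨fun n => if hn : ∃ w, (A.I n).sys.Valid w ∧
      (A.I n).Near (A.ε n) A.c.ρin ρ' (A.x n) z w then hn.choose else (A.I n).sys.w0, ?_, ?_⟩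
    · filter_upwards [h5] with n hn
      rw [dif_pos hn]
      exact hn.choose_spec.1
    · unfold Nr
      filter_upwards [h5] with n hn
      have e := hn.choose_spec.2
      unfold bad
      simp only [dif_pos hn]
      exact e
  T_complete z w hv hc := Ts_eq_zero
    ((T_complete' hQ hrb0 P.ρ_pos.le hra Ha hv hc).trans_lt h1)
  E0_sound w w' h hn hn' := E0_sound h2 (av_le_of_Ts h) hn hn'
  E0_complete w hc hc' := Ts_eq_zero ((E0_complete P.ρ_pos.le hc hc').trans_lt (by linarith))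
  E1_sound w w' h hv hn hn' := E1_sound P hρ' hρ₁ h2 (av_le_of_Ts h) hv hn hn'
  E1_complete w hv hc hc' := Ts_eq_zero ((E1_complete P hv hc hc').trans_lt (by linarith))
  D_sound z w h hn := D_sound hρ'.le h2 (av_le_of_Ts h) hn
  D_complete z hc := Ts_eq_zero ((D_complete P.ρ_pos.le hc).trans_lt (by linarith))
  mux_start h z := m_start P.ρ_pos h z
  mux_hold0 z h hn := m_hold0 P hρ₁ h hn
  mux_hold hs z w h hn := m_hold P hρ₁ hs h hn
  mux_copy hs ha z w h hc := m_copy P hs ha h hc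
  mux_step hs ha z w h hv hc := m_step P hs ha h hv hc
  mux_both hs ha w hn hn' := m_both P hρ₁ hs ha hn hn'
  mux_link hs ha w w' hv hv' e1 e2 hn hn' := m_link P hρ₁ hs ha hv hv' e1 e2 hn hn'
  nosol_false w hv hn := by
    filter_upwards [hv, hn] with n g1 g2
    exact (hN n).1 _ g1 (le_trans g2 hρ₀)
  nosol_true w hv hne hn := by
    filter_upwards [hv, hne, hn] with n g1 g2 g3
    exact (hN n).2 _ g1 g2 (le_trans g3 hρ₀)
  ctl i b h := ctl (by exact_mod_cast hτ) h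

end BLim

/-- **Soundness of networks of blocks.** -/
theorem bsound (c : BConst) (k r : ℕ) (hcon : ((k : ℝ) + 1) * c.c0 ^ (r + 1) ≤ 1 / 4)
    (ρ₀ : ℝ) (hρ₀ : 0 < ρ₀) : ∃ τ : ℚ, 0 < τ ∧ τ < 1 ∧ ∃ ρb : ℝ, 0 < ρb ∧ ∀ ρa : ℝ, 0 < ρa →
    ∃ ρo : ℝ, 0 < ρo ∧ ∀ N : BSpec, N.k = k → N.r = r → ∀ Q : BInst N → Prop,
    (∀ I, Q I → I.Facts c) → HoldSound N Q c.ρin ρo → StepSound N Q c.ρin ρo →
    CheckFlag N Q c.ρin c.κin → CheckReject N Q c.ρin ρb → CheckAccept N Q ρa ρb →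
    BSound N Q c.ρin τ ρ₀ := by
  have hθ := c.θ_pos
  have hρ₁ := c.ρ₁_pos
  have hd : 0 < c.θin - 2 * c.ρin := by have := c.θin_lt; linarith
  have hκin := c.κin_pos
  set ρ' : ℝ := min ρ₀ (min (c.ρ₁ / 2) (c.θ / 4)) with hρ'
  have hp : 0 < ρ' := lt_min hρ₀ (lt_min (by positivity) (by positivity))
  have hp1 : ρ' ≤ ρ₀ := min_le_left _ _
  have hp2 : ρ' ≤ c.ρ₁ / 2 := (min_le_right _ _).trans (min_le_left _ _)
  have hp3 : ρ' ≤ c.θ / 4 := (min_le_right _ _).trans (min_le_right _ _)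
  have hκ := c.κ_pos ρ' hp
  set D : ℝ := (k : ℝ) * (6 / c.κin + 1) + 7 with hD
  have hD0 : 0 < D := by positivity
  have hm : (0 : ℝ) < min 1 (min ((c.θin - 2 * c.ρin) * (c.θ / 2)) (c.κ ρ' / D)) :=
    lt_min one_pos (lt_min (by positivity) (by positivity))
  obtain ⟨τ, h0, h1⟩ := exists_rat_btwn hm
  have a1 : (τ : ℝ) < 1 := h1.trans_le (min_le_left _ _)
  have a2 : (τ : ℝ) < (c.θin - 2 * c.ρin) * (c.θ / 2) :=
    h1.trans_le ((min_le_right _ _).trans (min_le_left _ _))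
  have a3 : (τ : ℝ) < c.κ ρ' / D := h1.trans_le ((min_le_right _ _).trans (min_le_right _ _))
  have h0' : 0 < τ := by exact_mod_cast h0
  have a2' : (τ : ℝ) < (c.θin - 2 * c.ρin) * (c.θ - 2 * ρ') := by
    have : (c.θin - 2 * c.ρin) * (c.θ / 2) ≤ (c.θin - 2 * c.ρin) * (c.θ - 2 * ρ') :=
      mul_le_mul_of_nonneg_left (by linarith) hd.le
    linarith
  have a3' : (k : ℝ) * (6 * τ / c.κin + τ) + 7 * τ ≤ c.κ ρ' := by
    rw [lt_div_iff₀ hD0] at a3
    have e : (k : ℝ) * (6 * τ / c.κin + τ) + 7 * τ = τ * D := by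
      rw [hD]
      ring
    rw [e]
    exact a3.le
  refine ⟨τ, h0', by exact_mod_cast a1, (τ : ℝ) / 4, by positivity, fun ρa hρa => ?_⟩
  set ρ : ℝ := min (c.ρin / 5) (min (ρa / 5) ((τ : ℝ) / 40)) with hρ
  have hρin := c.ρin_pos
  have hq : 0 < ρ := lt_min (by positivity) (lt_min (by positivity) (by positivity))
  have hq1 : ρ ≤ c.ρin / 5 := min_le_left _ _
  have hq2 : ρ ≤ ρa / 5 := (min_le_right _ _).trans (min_le_left _ _)
  have hq3 : ρ ≤ (τ : ℝ) / 40 := (min_le_right _ _).trans (min_le_right _ _)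
  refine ⟨ρ, hq, fun N hNk hNr Q HF HH HS Hf Hr Ha => ?_⟩
  subst hNk hNr
  by_contra hcontra
  have key : ∀ n : ℕ, ∃ (I : BInst N) (x : BReg N → I.Site → ℝ), Q I ∧
      I.Obeys τ ((S.seqEps n : ℚ) : ℝ) ((S.seqLam n : ℚ) : ℝ) ((S.seqEps n : ℚ) : ℝ) x ∧
      BLim.NoSol I ((S.seqEps n : ℚ) : ℝ) c.ρin ρ₀ x := by
    intro n
    by_contra hn
    apply hcontra
    refine ⟨S.seqLam n, S.seqLam_pos n, S.seqLam_lt n, S.seqEps n, S.seqEps_pos n, S.seqEps_lt n,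
      ((S.seqEps n : ℚ) : ℝ), by exact_mod_cast S.seqEps_pos n, fun I hI x hO => ?_⟩
    by_contra hs
    push Not at hs
    exact hn ⟨I, x, hI, hO, fun w a b => hs.1 w a b, fun w a b c => hs.2 w a b c⟩
  choose I x hI hO hN using key
  let A : BLim N :=
    { U := hyperfilter ℕ
      I := I
      τ := τ
      c := c
      ε := fun n => ((S.seqEps n : ℚ) : ℝ)
      lam := fun n => ((S.seqLam n : ℚ) : ℝ)
      β := fun n => ((S.seqEps n : ℚ) : ℝ)
      x := x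
      facts := fun n => HF (I n) (hI n)
      obeys := hO
      ε_pos := fun n => by exact_mod_cast S.seqEps_pos n
      ε_lt := fun n => by
        have := S.seqEps_lt n
        have h : ((S.seqEps n : ℚ) : ℝ) < ((1 / 100 : ℚ) : ℝ) := by exact_mod_cast this
        push_cast at h
        exact h
      ε_lim := S.seqEps_lim.mono_left Nat.hyperfilter_le_atTop
      β_lim := S.seqEps_lim.mono_left Nat.hyperfilter_le_atTop
      lam_pos := fun n => by exact_mod_cast S.seqLam_pos n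
      lam_lt := fun n => by exact_mod_cast S.seqLam_lt n
      lam_lim := S.seqLam_lim.mono_left Nat.hyperfilter_le_atTop
      ε_lam := S.seqEps_lam.mono_left Nat.hyperfilter_le_atTop
      β_lam := S.seqEps_lam.mono_left Nat.hyperfilter_le_atTop }
  have P : A.Par ρ :=
    { ρ_pos := hq
      ρ_le := by
        show 5 * ρ ≤ c.ρin
        linarith
      hold := fun z j => BLim.hold_ok (A := A) hI HH z j
      step := fun z => BLim.step_ok (A := A) hI HS z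
      con := hcon }
  refine (BLim.toSeq A hI P hp hp2 hp1 h0' (rb := (τ : ℝ) / 4) (by positivity) (by linarith)
    (ra := ρa) (by linarith) ?_ a2' a3' Hf Hr Ha hN).toCore.no
  show (τ : ℝ) / 4 + 10 * ρ < τ
  linarith

end Vale.Agent.P330.H551
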