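import Vale.Agent.P330.H551.BMod

/-!
# The test of a register in a network of blocks

`thr_pre`, `crisp_or`: the registers `x`, `lo`, `hi` from `pre`. `T_sound`, `T_complete`: soundness
and completeness of the test in the limit.
-/

namespace Vale.Agent.P330.H551

open Finset PCP.AR Filter Topology
open S (BitDef MDef Sem IsB Tst aef ae_iff ae_of_le ae_of_small ae_pr_lt ae_fst ae_fiber pr_fiber)

variable {N : BSpec}

namespace BLim

variable {A : BLim N}

/-- A pure value of `pre` gives the values of `x`, `lo`, `hi`. -/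
theorem thr_pre (z : Bool) : ∀ᶠ ω in A.F, ∀ l : N.L, ∀ b, IsB (A.ε ω.1) b (A.v (.pre z l) ω) →
    IsB (A.ε ω.1) b (A.v (.x z l) ω) ∧ IsB (A.ε ω.1) b (A.v (.lo z l) ω) ∧
      IsB (A.ε ω.1) b (A.v (.hi z l) ω) := by
  rw [eventually_all]
  intro l
  filter_upwards [A.rel (.x z l), A.rel (.lo z l), A.rel (.hi z l)] with ω g1 g2 g3 b hb
  have h1 := g1
  have h2 := g2
  have h3 := g3
  have hε := A.ε_lt ω.1
  have e1 : ((1 / 2 : ℚ) : ℝ) = 1 / 2 := by push_cast; ring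
  have e2 : ((1 / 4 : ℚ) : ℝ) = 1 / 4 := by push_cast; ring
  have e3 : ((3 / 4 : ℚ) : ℝ) = 3 / 4 := by push_cast; ring
  cases b with
  | false =>
    have hb' : A.x ω.1 (.pre z l) ω.2 ≤ A.ε ω.1 := hb
    exact ⟨h1.2 (by rw [e1]; linarith), h2.2 (by rw [e2]; linarith), h3.2 (by rw [e3]; linarith)⟩
  | true =>
    have hb' : 1 - A.ε ω.1 ≤ A.x ω.1 (.pre z l) ω.2 := hb
    exact ⟨h1.1 (by rw [e1]; linarith), h2.1 (by rw [e2]; linarith), h3.1 (by rw [e3]; linarith)⟩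

/-- Almost all sites: either the block stream has pure values or the test fails. -/
theorem crisp_or (A : BLim N) (z : Bool) : ∀ᶠ ω in A.F,
    (∀ l : N.L, IsB (A.ε ω.1) true (A.v (.x z l) ω) ∨ IsB (A.ε ω.1) false (A.v (.x z l) ω)) ∨
      IsB (A.ε ω.1) true (A.v (.t (.T z)) ω) := by
  have h1 : ∀ᶠ ω in A.F, ∀ l : N.L,
      (bnet N A.τ (.x z l)).Rel (A.I ω.1).sem (A.ε ω.1) (A.lam ω.1) (A.x ω.1) (.x z l) ω.2 :=
    eventually_all.2 fun l => A.rel (.x z l)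
  have h2 : ∀ᶠ ω in A.F, ∀ l : N.L,
      (bnet N A.τ (.lo z l)).Rel (A.I ω.1).sem (A.ε ω.1) (A.lam ω.1) (A.x ω.1) (.lo z l) ω.2 :=
    eventually_all.2 fun l => A.rel (.lo z l)
  have h3 : ∀ᶠ ω in A.F, ∀ l : N.L,
      (bnet N A.τ (.hi z l)).Rel (A.I ω.1).sem (A.ε ω.1) (A.lam ω.1) (A.x ω.1) (.hi z l) ω.2 :=
    eventually_all.2 fun l => A.rel (.hi z l)
  filter_upwards [h1, h2, h3, A.rel (.t (.T z))] with ω g1 g2 g3 g4
  have hε := A.ε_lt ω.1
  have e1 : ((1 / 2 : ℚ) : ℝ) = 1 / 2 := by push_cast; ring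
  have e2 : ((1 / 4 : ℚ) : ℝ) = 1 / 4 := by push_cast; ring
  have e3 : ((3 / 4 : ℚ) : ℝ) = 3 / 4 := by push_cast; ring
  by_cases hc : ∀ l : N.L, 1 / 2 + 2 * A.ε ω.1 < A.x ω.1 (.pre z l) ω.2 ∨
      A.x ω.1 (.pre z l) ω.2 < 1 / 2 - 2 * A.ε ω.1
  · left
    intro l
    rcases hc l with h | h
    · exact Or.inl ((g1 l).1 (by rw [e1]; exact h))
    · exact Or.inr ((g1 l).2 (by rw [e1]; exact h))
  · right
    push Not at hc
    obtain ⟨l, a1, a2⟩ := hc
    exact T_flag (l := l) g4 ((g2 l).1 (by rw [e2]; linarith)) ((g3 l).2 (by rw [e3]; linarith))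

/-- union bound over the wires -/
theorem pr_wires (I : BInst N) (G : I.Om → Prop) :
    pr (fun h => ∃ i : Fin N.k, G (I.sys.wr i h)) ≤ N.k * pr G := by
  have h1 := S.pr_exists_le (fun (i : Fin N.k) h => G (I.sys.wr i h)) (pr G) fun i =>
    (pr_equiv (I.sys.wr i) G).le
  rwa [Fintype.card_fin] at h1

/-- Markov for the fibres over the outer sites. -/
theorem pr_outer (I : BInst N) (P : I.Site → Prop) {c b : ℝ} (hc : 0 < c) (h : pr P ≤ b) :
    pr (fun h : I.Om => c ≤ pr fun ω : I.P × I.Z => P (h, ω)) ≤ b / c := by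
  rw [le_div_iff₀ hc, mul_comm]
  exact (pr_fiber (V := I.Om) (W := I.P × I.Z) P c).trans h

/-- **Soundness of the test in the limit.** -/
theorem T_sound {Q : BInst N → Prop} (hQ : ∀ n, Q (A.I n)) {rb : ℝ}
    (Hf : CheckFlag N Q A.c.ρin A.c.κin) (Hr : CheckReject N Q A.c.ρin rb) (hrb : rb ≤ 1 / 2)
    (hτ : 0 < A.τ) {ρ' : ℝ} (hρ : 0 < ρ')
    (hκ : N.k * (6 * A.τ / A.c.κin + A.τ) + 7 * A.τ ≤ A.c.κ ρ') (z : Bool)
    (h : A.av (.t (.T z)) ≤ A.τ) :
    ∀ᶠ n in (A.U : Filter ℕ), ∃ w, (A.I n).sys.Valid w ∧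
      (A.I n).Near (A.ε n) A.c.ρin ρ' (A.x n) z w := by
  classical
  have hτ' : (0 : ℝ) < A.τ := by exact_mod_cast hτ
  have hκin := A.c.κin_pos
  have h1 := ae_pr_lt (crisp_or A z) hτ'
  have h2 := A.pr_true_le (.t (.T z)) hτ'
  have h3 : ∀ᶠ n in (A.U : Filter ℕ), A.β n < A.τ := A.β_lim.eventually (gt_mem_nhds hτ')
  have h4 : ∀ᶠ h in A.FO, A.FlagOK A.c.ρin A.c.κin z h ∧ A.RejectOK A.c.ρin rb z h :=
    (flag_ok hQ Hf z).and (reject_ok hQ Hr z)
  have h4' := ae_pr_lt h4 hτ'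
  filter_upwards [h1, h2, h3, h4'] with n g1 g2 g3 g4
  set I := A.I n with hI
  set ε := A.ε n with hε
  set x := A.x n with hx
  set τ : ℝ := (A.τ : ℝ) with hτd
  have hrel := ((A.obeys n).2 (.t (.T z))).trans g3.le
  have htt : pr (fun ω => IsB ε true (x (.t (.T z)) ω)) ≤ 2 * τ := by linarith
  -- not pure
  set NC : I.Site → Prop := fun ω => ¬ ∀ l : N.L, IsB ε true (x (.x z l) ω) ∨
    IsB ε false (x (.x z l) ω) with hNC
  have hC : pr NC ≤ 3 * τ := by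
    have e1 := pr_or (fun ω : I.Site =>
      ¬ ((∀ l : N.L, IsB ε true (x (.x z l) ω) ∨ IsB ε false (x (.x z l) ω)) ∨
        IsB ε true (x (.t (.T z)) ω))) (fun ω => IsB ε true (x (.t (.T z)) ω))
    have e2 : pr NC ≤ _ := le_trans (pr_mono fun ω hω => ?_) e1
    · have g1' : pr (fun ω : I.Site =>
        ¬ ((∀ l : N.L, IsB ε true (x (.x z l) ω) ∨ IsB ε false (x (.x z l) ω)) ∨
        IsB ε true (x (.t (.T z)) ω))) < τ := g1
      linarith
    · by_cases ht : IsB ε true (x (.t (.T z)) ω)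
      · exact Or.inr ht
      · exact Or.inl fun hc => hc.elim hω ht
  -- output of check
  set CT : I.Site → Prop := fun ω => IsB ε true (x (.check z (N.check.out ())) ω) with hCT
  have hT : pr CT ≤ 3 * τ := by
    have e1 := pr_or (fun ω : I.Site =>
      ¬ (bnet N A.τ (.t (.T z))).Rel I.sem ε (A.lam n) x (.t (.T z)) ω)
      (fun ω => IsB ε true (x (.t (.T z)) ω))
    have e2 : pr CT ≤ _ := le_trans (pr_mono fun ω hω => ?_) e1
    · linarith
    · by_cases hr : (bnet N A.τ (.t (.T z))).Rel I.sem ε (A.lam n) x (.t (.T z)) ω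
      · exact Or.inr (T_true hr hω)
      · exact Or.inl hr
  -- bad outer sites
  set E1 : I.Om → Prop := fun h => A.c.κin ≤ pr fun ω : I.P × I.Z => NC (h, ω) with hE1
  set E2 : I.Om → Prop := fun h => A.c.κin ≤ pr fun ω : I.P × I.Z => CT (h, ω) with hE2
  set E3 : I.Om → Prop := fun h => (1 / 2 : ℝ) ≤ pr fun ω : I.P × I.Z => CT (h, ω) with hE3
  set E4 : I.Om → Prop := fun h => ¬ (A.FlagOK A.c.ρin A.c.κin z ⟨n, h⟩ ∧
    A.RejectOK A.c.ρin rb z ⟨n, h⟩) with hE4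
  have p1 : pr E1 ≤ 3 * τ / A.c.κin := pr_outer I NC hκin hC
  have p2 : pr E2 ≤ 3 * τ / A.c.κin := pr_outer I CT hκin hT
  have p3 : pr E3 ≤ 6 * τ := (pr_outer I CT (by norm_num) hT).trans (by linarith)
  have p4 : pr E4 ≤ τ := g4.le
  -- the blocks read
  set X : I.Om → Option I.Bl := fun h =>
    if hs : ∃ s, I.Clean ε A.c.ρin s (I.str x (.x z) h) then some hs.choose else none with hX
  have hX1 : ∀ h s, X h = some s → I.Clean ε A.c.ρin s (I.str x (.x z) h) := by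
    intro h s hs
    simp only [hX] at hs
    split_ifs at hs with hc
    rw [← Option.some.inj hs]
    exact hc.choose_spec
  have hX2 : ∀ h, X h = none → E1 h ∨ E2 h ∨ E4 h := by
    intro h hs
    simp only [hX] at hs
    split_ifs at hs with hc
    by_contra hcon
    have c1 := fun a => hcon (Or.inl a)
    have c2 := fun a => hcon (Or.inr (Or.inl a))
    have c3 := fun a => hcon (Or.inr (Or.inr a))
    refine hc ((not_not.1 c3).1 ?_ ?_)
    · have c1' := (not_le.1 c1).le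
      refine le_trans (pr_mono fun ω hω => ?_) c1'
      obtain ⟨l, hl⟩ := hω
      exact fun hcc => hl (hcc l)
    · exact (not_le.1 c2).le
  have hviol : H797.fr (fun h => ¬ ∃ v : Fin N.k → I.Bl, (∀ i, X (I.sys.wr i h) = some (v i)) ∧
      I.sys.chi h v) ≤ A.c.κ ρ' := by
    rw [fr_eq_pr]
    have q1 := pr_wires I (fun h => E1 h ∨ E2 h ∨ E4 h)
    have q2 : pr (fun h => E1 h ∨ E2 h ∨ E4 h) ≤ pr E1 + (pr E2 + pr E4) :=
      (pr_or _ _).trans (add_le_add le_rfl (pr_or _ _))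
    have q3 : pr (fun h => (∃ i : Fin N.k, E1 (I.sys.wr i h) ∨ E2 (I.sys.wr i h) ∨
        E4 (I.sys.wr i h)) ∨ E3 h ∨ E4 h) ≤ _ := (pr_or _ _).trans
      (add_le_add le_rfl (pr_or E3 E4))
    have q4 : pr (fun h => ¬ ∃ v : Fin N.k → I.Bl, (∀ i, X (I.sys.wr i h) = some (v i)) ∧
      I.sys.chi h v) ≤ _ := le_trans (pr_mono fun h hh => ?_) q3
    · have q5 : (N.k : ℝ) * pr (fun h => E1 h ∨ E2 h ∨ E4 h) ≤
          N.k * (6 * τ / A.c.κin + τ) := by
        refine mul_le_mul_of_nonneg_left ?_ (Nat.cast_nonneg _)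
        have e : 6 * τ / A.c.κin = 3 * τ / A.c.κin + 3 * τ / A.c.κin := by ring
        linarith
      linarith
    · by_cases hn : ∃ i, X (I.sys.wr i h) = none
      · obtain ⟨i, hi⟩ := hn
        exact Or.inl ⟨i, hX2 _ hi⟩
      · right
        by_cases hb : E4 h
        · exact Or.inr hb
        left
        have hb' := not_not.1 hb
        have hs : ∀ i, ∃ s, X (I.sys.wr i h) = some s := fun i =>
          Option.ne_none_iff_exists'.1 fun hc => hn ⟨i, hc⟩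
        choose v hv using hs
        have hchi : ¬ I.sys.chi h v := fun hc => hh ⟨v, hv, hc⟩
        have c1 := hb'.2 v (fun i => hX1 _ _ (hv i)) hchi
        have c2 : pr (fun ω : I.P × I.Z => ¬ CT (h, ω)) ≤ 1 / 2 := le_trans c1 hrb
        have c3 : (1 : ℝ) ≤ pr (fun ω : I.P × I.Z => CT (h, ω)) +
            pr (fun ω : I.P × I.Z => ¬ CT (h, ω)) := by
          have c4 := pr_or (fun ω : I.P × I.Z => CT (h, ω)) (fun ω => ¬ CT (h, ω))
          have c5 : pr (fun ω : I.P × I.Z => CT (h, ω) ∨ ¬ CT (h, ω)) = 1 := by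
            rw [← pr_true (Ω := I.P × I.Z)]
            exact pr_congr fun ω => ⟨fun _ => trivial, fun _ => em _⟩
          rw [c5] at c4
          exact c4
        show (1 / 2 : ℝ) ≤ pr fun ω : I.P × I.Z => CT (h, ω)
        linarith
  obtain ⟨w, hw, hw'⟩ := (A.facts n).dyn.sound ρ' hρ X hviol
  refine ⟨w, hw, ?_⟩
  rw [fr_eq_pr] at hw'
  refine le_trans (pr_mono (r := fun h => X h ≠ some (I.sys.word w h)) fun h hh hc => hh ?_) hw'
  exact hX1 h _ hc

/-- The wires preserve almost all outer sites. -/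
theorem ae_wire {P : A.PO → Prop} (h : ∀ᶠ h in A.FO, P h) :
    ∀ᶠ h in A.FO, ∀ i : Fin N.k, P ⟨h.1, (A.I h.1).sys.wr i h.2⟩ := by
  rw [eventually_all]
  intro i
  have h1 : Tendsto (fun h : A.PO => (⟨h.1, (A.I h.1).sys.wr i h.2⟩ : A.PO)) A.FO A.FO :=
    S.ae_map_bij (φ := fun n h => (A.I n).sys.wr i h) fun n => ((A.I n).sys.wr i).bijective
  exact h1.eventually h

/-- The probability of an event from the probabilities of the sections. -/
theorem pr_sec_le {V W : Type*} [Fintype V] [Fintype W] [Nonempty V] [Nonempty W]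
    (P : V × W → Prop) {c : ℝ} (hc : 0 ≤ c) :
    pr P ≤ c + pr (fun v : V => ¬ pr (fun w : W => P (v, w)) ≤ c) := by
  have h1 := pr_or (fun ω : V × W => P ω ∧ pr (fun w : W => P (ω.1, w)) ≤ c)
    (fun ω : V × W => ¬ pr (fun w : W => P (ω.1, w)) ≤ c)
  have h2 : pr (fun ω : V × W => P ω ∧ pr (fun w : W => P (ω.1, w)) ≤ c) ≤ c := by
    refine PCP.AR.pr_prod_le _ c fun v => ?_
    by_cases hv : pr (fun w : W => P (v, w)) ≤ c
    · exact le_trans (pr_mono fun w hw => hw.1) hv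
    · refine le_trans (le_of_eq ?_) hc
      rw [← pr_false (Ω := W)]
      exact pr_congr fun w => ⟨fun hw => hv hw.2, fun hw => hw.elim⟩
  have h3 : pr (fun ω : V × W => ¬ pr (fun w : W => P (ω.1, w)) ≤ c) =
      pr (fun v : V => ¬ pr (fun w : W => P (v, w)) ≤ c) :=
    pr_fst fun v : V => ¬ pr (fun w : W => P (v, w)) ≤ c
  have h4 : pr P ≤ _ := le_trans (pr_mono fun ω hω => ?_) h1
  · rw [h3] at h4
    linarith
  · by_cases hv : pr (fun w : W => P (ω.1, w)) ≤ c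
    · exact Or.inl ⟨hω, hv⟩
    · exact Or.inr hv

/-- Bounds for the average from the sections at almost all outer sites. -/
theorem av_le_of_sec {ρ : BReg N} {c : ℝ} (hc : 0 ≤ c) (h : ∀ᶠ h in A.FO,
    pr (fun ω : (A.I h.1).P × (A.I h.1).Z => ¬ IsB (A.ε h.1) false (A.x h.1 ρ (h.2, ω))) ≤ c) :
    A.av ρ ≤ c := by
  refine le_of_forall_pos_le_add fun η hη => ?_
  refine A.av_le_of_pr ?_
  filter_upwards [ae_pr_lt h hη] with n hn
  have h1 := pr_sec_le (V := (A.I n).Om) (W := (A.I n).P × (A.I n).Z)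
    (fun ω => ¬ IsB (A.ε n) false (A.x n ρ ω)) hc
  exact h1.trans (add_le_add le_rfl hn.le)

/-- At almost all outer sites a register obeys its definition at most of the inner sites. -/
theorem rel_sec (ρ : BReg N) {η : ℝ} (hη : 0 < η) : ∀ᶠ h in A.FO,
    pr (fun ω : (A.I h.1).P × (A.I h.1).Z => ¬ (bnet N A.τ ρ).Rel (A.I h.1).sem (A.ε h.1)
      (A.lam h.1) (A.x h.1) ρ (h.2, ω)) < η :=
  ae_fiber (A := fun n => (A.I n).Om) (B := fun n => (A.I n).P × (A.I n).Z) (A.rel ρ) hη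

/-- **Completeness of the test in the limit.** -/
theorem T_complete {Q : BInst N → Prop} (hQ : ∀ n, Q (A.I n)) {ra rb rc : ℝ}
    (hb0 : 0 ≤ rb) (hc0 : 0 ≤ rc)
    (Ha : CheckAccept N Q ra rb) {z : Bool} {w : ∀ n, (A.I n).Cf}
    (hv : ∀ᶠ n in (A.U : Filter ℕ), (A.I n).sys.Valid (w n))
    (h1 : ∀ᶠ h in A.FO, (A.I h.1).Clean (A.ε h.1) ra ((A.I h.1).sys.word (w h.1) h.2)
      ((A.I h.1).str (A.x h.1) (.x z) h.2))
    (h2 : ∀ᶠ h in A.FO, pr (fun ω : (A.I h.1).P × (A.I h.1).Z => ∃ l : N.L,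
      ¬ (IsB (A.ε h.1) ((A.I h.1).enc ((A.I h.1).sys.word (w h.1) h.2) l ω.1)
          (A.x h.1 (.lo z l) (h.2, ω)) ∧
        IsB (A.ε h.1) ((A.I h.1).enc ((A.I h.1).sys.word (w h.1) h.2) l ω.1)
          (A.x h.1 (.hi z l) (h.2, ω)))) ≤ rc) :
    A.av (.t (.T z)) ≤ rb + rc := by
  refine le_of_forall_pos_le_add fun η hη => ?_
  have k1 := ae_wire h1
  have k2 := accept_ok (A := A) hQ Ha z
  have k3 := ae_fst (Ω := fun n => (A.I n).Om) (Q := fun n => (A.I n).sys.Valid (w n)) hv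
  refine av_le_of_sec (by positivity) ?_
  filter_upwards [k1, k2, k3, h2, rel_sec (A := A) (.t (.T z)) hη] with h g1 g2 g3 g4 g5
  have g6 := g2 _ g1 ((A.facts h.1).dyn.complete _ g3 h.2)
  have e1 := pr_or (fun ω : (A.I h.1).P × (A.I h.1).Z => ¬ (bnet N A.τ (.t (.T z))).Rel
    (A.I h.1).sem (A.ε h.1) (A.lam h.1) (A.x h.1) (.t (.T z)) (h.2, ω))
    (fun ω => ¬ IsB (A.ε h.1) false (A.tout z h ω) ∨ ∃ l : N.L,
      ¬ (IsB (A.ε h.1) ((A.I h.1).enc ((A.I h.1).sys.word (w h.1) h.2) l ω.1)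
          (A.x h.1 (.lo z l) (h.2, ω)) ∧
        IsB (A.ε h.1) ((A.I h.1).enc ((A.I h.1).sys.word (w h.1) h.2) l ω.1)
          (A.x h.1 (.hi z l) (h.2, ω))))
  have e2 := pr_or (fun ω : (A.I h.1).P × (A.I h.1).Z => ¬ IsB (A.ε h.1) false (A.tout z h ω))
    (fun ω => ∃ l : N.L,
      ¬ (IsB (A.ε h.1) ((A.I h.1).enc ((A.I h.1).sys.word (w h.1) h.2) l ω.1)
          (A.x h.1 (.lo z l) (h.2, ω)) ∧
        IsB (A.ε h.1) ((A.I h.1).enc ((A.I h.1).sys.word (w h.1) h.2) l ω.1)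
          (A.x h.1 (.hi z l) (h.2, ω))))
  refine le_trans (pr_mono fun ω hω => ?_) (e1.trans (by linarith))
  by_contra hc
  have c1 := not_not.1 fun a => hc (Or.inl a)
  have c2 := not_not.1 fun a => hc (Or.inr (Or.inl a))
  have c3 : ∀ l : N.L, _ := fun l => not_not.1 fun a => hc (Or.inr (Or.inr ⟨l, a⟩))
  exact hω (T_false c1 c2 _ (fun l => (c3 l).1) fun l => (c3 l).2)

end BLim

end Vale.Agent.P330.H551
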