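import Vale.Agent.P330.H551.BCon
import Vale.Agent.P330.W.H632.Pre

/-!
# The tests in a network of blocks

`Codes`, `Nr` and the fields of `S.SeqCore` about the tests and the control bits.
-/

namespace Vale.Agent.P330.H551

open Finset PCP.AR Filter Topology
open S (BitDef MDef Sem IsB Tst Ctl target ThOK TfOK aef ae_iff ae_of_le ae_of_small ae_pr_lt ae_fst
  ae_fiber pr_fiber)

variable {N : BSpec}

namespace BLim

variable {A : BLim N}

/-- The register `z` holds the word of `w`. -/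
def Codes (A : BLim N) (ρ : ℝ) (z : Bool) (w : A.Cfg) : Prop :=
  A.Cln (5 * ρ) (.x z) w ∧ A.Cln (5 * ρ) (.lo z) w ∧ A.Cln (5 * ρ) (.hi z) w

/-- The register `z` is `ρ'`-near the word of `w`. -/
def Nr (A : BLim N) (ρ' : ℝ) (z : Bool) (w : A.Cfg) : Prop :=
  ∀ᶠ n in (A.U : Filter ℕ), A.bad A.c.ρin (.x z) w n ≤ ρ'

theorem Cln.congr {ρ : ℝ} {f : N.L → BReg N} {w w' : A.Cfg}
    (h : ∀ᶠ n in (A.U : Filter ℕ), w n = w' n) (hc : A.Cln ρ f w) : A.Cln ρ f w' := by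
  have h1 := ae_fst (Ω := fun n => (A.I n).Om) (Q := fun n => w n = w' n) h
  filter_upwards [h1, hc] with h g1 g2
  rw [← g1]
  exact g2

theorem Codes.congr {ρ : ℝ} {z : Bool} {w w' : A.Cfg}
    (h : ∀ᶠ n in (A.U : Filter ℕ), w n = w' n) (hc : A.Codes ρ z w) : A.Codes ρ z w' :=
  ⟨hc.1.congr h, hc.2.1.congr h, hc.2.2.congr h⟩

theorem Nr.congr {ρ' : ℝ} {z : Bool} {w w' : A.Cfg}
    (h : ∀ᶠ n in (A.U : Filter ℕ), w n = w' n) (hc : A.Nr ρ' z w) : A.Nr ρ' z w' := by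
  filter_upwards [h, hc] with n g1 g2
  unfold bad at g2 ⊢
  rw [← g1]
  exact g2

theorem Codes.nr {ρ ρ' : ℝ} (hρ : 5 * ρ ≤ A.c.ρin) (hρ' : 0 < ρ') {z : Bool} {w : A.Cfg}
    (h : A.Codes ρ z w) : A.Nr ρ' z w :=
  cln_iff.1 (h.1.mono hρ) ρ' hρ'

/-- The value of a test from two streams. -/
theorem cmp_av {ρ₁ ρ₂ : ℝ} (h1 : 0 ≤ ρ₁) (h2 : 0 ≤ ρ₂) {k : BReg N} {f g : N.L → BReg N}
    {w : A.Cfg} (hf : A.Cln ρ₁ f w) (hg : A.Cln ρ₂ g w)
    (H : ∀ n (ω : (A.I n).Site), (bnet N A.τ k).Rel (A.I n).sem (A.ε n) (A.lam n) (A.x n) k ω →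
      Rt (A.I n) (A.ε n) (A.x n) f (w n) ω → Rt (A.I n) (A.ε n) (A.x n) g (w n) ω →
      IsB (A.ε n) false (A.x n k ω)) : A.av k ≤ ρ₁ + ρ₂ := by
  refine le_of_forall_pos_le_add fun η hη => ?_
  refine av_le_of_sec (by positivity) ?_
  filter_upwards [hf, hg, rel_sec (A := A) k hη] with h g1 g2 g3
  rw [clean_iff] at g1 g2
  have e1 := pr_or (fun ω : (A.I h.1).P × (A.I h.1).Z => ¬ (bnet N A.τ k).Rel
    (A.I h.1).sem (A.ε h.1) (A.lam h.1) (A.x h.1) k (h.2, ω))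
    (fun ω => ¬ Rt (A.I h.1) (A.ε h.1) (A.x h.1) f (w h.1) (h.2, ω) ∨
      ¬ Rt (A.I h.1) (A.ε h.1) (A.x h.1) g (w h.1) (h.2, ω))
  have e2 := pr_or (fun ω : (A.I h.1).P × (A.I h.1).Z =>
    ¬ Rt (A.I h.1) (A.ε h.1) (A.x h.1) f (w h.1) (h.2, ω))
    (fun ω => ¬ Rt (A.I h.1) (A.ε h.1) (A.x h.1) g (w h.1) (h.2, ω))
  refine le_trans (pr_mono fun ω hω => ?_) (e1.trans (by linarith))
  by_contra hc
  exact hω (H h.1 (h.2, ω) (not_not.1 fun a => hc (Or.inl a))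
    (not_not.1 fun a => hc (Or.inr (Or.inl a))) (not_not.1 fun a => hc (Or.inr (Or.inr a))))

theorem E0_complete {ρ : ℝ} (hρ : 0 ≤ ρ) {w : A.Cfg} (h1 : A.Codes ρ false w)
    (h2 : A.Codes ρ true w) : A.av (.t .E0) ≤ 10 * ρ := by
  have := cmp_av (k := .t .E0) (by positivity) (by positivity) h1.1 h2.1
    fun n ω hR g1 g2 => E0_pt hR g1 g2
  linarith

theorem E1_complete {ρ : ℝ} (P : A.Par ρ) {w : A.Cfg}
    (hv : ∀ᶠ n in (A.U : Filter ℕ), (A.I n).sys.Valid (w n)) (h1 : A.Codes ρ false w)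
    (h2 : A.Codes ρ true (A.stp false w)) : A.av (.t .E1) ≤ 10 * ρ := by
  have hρ := P.ρ_pos.le
  have := cmp_av (k := .t .E1) (by positivity) (by positivity) (aN_cln P hv h1.1) h2.1
    fun n ω hR g1 g2 => E1_pt hR g1 g2
  linarith

theorem D_complete {ρ : ℝ} (hρ : 0 ≤ ρ) {z : Bool}
    (h1 : A.Codes ρ z fun n => (A.I n).sys.w0) : A.av (.t (.D z)) ≤ 10 * ρ := by
  have := cmp_av (k := .t (.D z)) (by positivity) (by positivity) h1.1 h1.1
    fun n ω hR g1 g2 => D_pt hR g1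
  linarith

theorem T_complete' {Q : BInst N → Prop} (hQ : ∀ n, Q (A.I n)) {ra rb ρ : ℝ}
    (hb0 : 0 ≤ rb) (hρ : 0 ≤ ρ) (hra : 5 * ρ ≤ ra)
    (Ha : CheckAccept N Q ra rb) {z : Bool} {w : A.Cfg}
    (hv : ∀ᶠ n in (A.U : Filter ℕ), (A.I n).sys.Valid (w n)) (h : A.Codes ρ z w) :
    A.av (.t (.T z)) ≤ rb + 10 * ρ := by
  refine T_complete hQ hb0 (by positivity) Ha hv (h.1.mono hra) ?_
  filter_upwards [h.2.1, h.2.2] with h g1 g2
  rw [clean_iff] at g1 g2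
  have e2 := pr_or (fun ω : (A.I h.1).P × (A.I h.1).Z =>
    ¬ Rt (A.I h.1) (A.ε h.1) (A.x h.1) (.lo z) (w h.1) (h.2, ω))
    (fun ω => ¬ Rt (A.I h.1) (A.ε h.1) (A.x h.1) (.hi z) (w h.1) (h.2, ω))
  refine le_trans (pr_mono fun ω hω => ?_) (e2.trans (by linarith))
  obtain ⟨l, hl⟩ := hω
  by_contra hc
  exact hl ⟨(not_not.1 fun a => hc (Or.inl a)) l, (not_not.1 fun a => hc (Or.inr a)) l⟩

/-! ### Soundness of the comparisons -/

/-- A test that is on if two sequences differ at infinitely many `n`. -/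
theorem eq_of_lower {k : BReg N} {w w' : A.Cfg} {b : ℝ} (hb : (A.τ : ℝ) < b)
    (h : A.av k ≤ A.τ) (H : ∀ᶠ n in (A.U : Filter ℕ), w n ≠ w' n →
      b - A.β n ≤ pr (fun ω : (A.I n).Site => IsB (A.ε n) true (A.x n k ω))) :
    ∀ᶠ n in (A.U : Filter ℕ), w n = w' n := by
  have hη : 0 < (b - A.τ) / 2 := by linarith
  have h3 : ∀ᶠ n in (A.U : Filter ℕ), A.β n < (b - A.τ) / 2 :=
    A.β_lim.eventually (gt_mem_nhds hη)
  filter_upwards [H, A.pr_true_le k hη, h3] with n g1 g2 g3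
  by_contra hc
  have := g1 hc
  linarith

theorem E0_sound {ρ' : ℝ} (hτ : (A.τ : ℝ) < (A.c.θin - 2 * A.c.ρin) * (A.c.θ - 2 * ρ'))
    {w w' : A.Cfg} (h : A.av (.t .E0) ≤ A.τ) (h1 : A.Nr ρ' false w) (h2 : A.Nr ρ' true w') :
    ∀ᶠ n in (A.U : Filter ℕ), w n = w' n := by
  refine eq_of_lower hτ h ?_
  filter_upwards [h1, h2] with n g1 g2 hne
  have h3 := E0_lower (A.facts n) ((A.obeys n).2 (.t .E0)) g1 g2 hne
  have e : A.c.θ - ρ' - ρ' = A.c.θ - 2 * ρ' := by ring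
  rw [e] at h3
  exact h3

theorem D_sound {ρ' : ℝ} (hρ' : 0 ≤ ρ')
    (hτ : (A.τ : ℝ) < (A.c.θin - 2 * A.c.ρin) * (A.c.θ - 2 * ρ'))
    {z : Bool} {w : A.Cfg} (h : A.av (.t (.D z)) ≤ A.τ) (h1 : A.Nr ρ' z w) :
    ∀ᶠ n in (A.U : Filter ℕ), w n = (A.I n).sys.w0 := by
  refine eq_of_lower (w := w) (w' := fun n => (A.I n).sys.w0) hτ h ?_
  filter_upwards [h1] with n g1 hne
  have h3 := D_lower (A.facts n) ((A.obeys n).2 (.t (.D z))) g1 hne
  have h4 : (A.c.θin - 2 * A.c.ρin) * (A.c.θ - 2 * ρ') ≤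
      (A.c.θin - 2 * A.c.ρin) * (A.c.θ - ρ') :=
    mul_le_mul_of_nonneg_left (by linarith) (by have := A.c.θin_lt; linarith)
  linarith

/-- The stream of the next configuration is near. -/
theorem aN_near {ρ ρ' : ℝ} (P : A.Par ρ) (hρ' : 0 < ρ') (hρ₁ : ρ' ≤ A.c.ρ₁ / 2) {z : Bool}
    {w : A.Cfg} (hv : ∀ᶠ n in (A.U : Filter ℕ), (A.I n).sys.Valid (w n)) (h : A.Nr ρ' z w) :
    ∀ᶠ n in (A.U : Filter ℕ), A.bad A.c.ρin (aN z) (A.stp z w) n ≤ ρ' := by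
  have hk : (0 : ℝ) ≤ N.k := Nat.cast_nonneg _
  set δ : ℝ := ρ' / (4 * (N.k + 1)) with hδ
  have hδ0 : 0 < δ := by positivity
  have hδ1 : δ * (4 * (N.k + 1)) = ρ' := by
    rw [hδ]
    field_simp
  filter_upwards [h, hN_bad P z w hδ0, aN_bad P z w hv hδ0] with n g1 g2 g3
  have g4 := g2 (g1.trans hρ₁)
  have hle : ρ ≤ A.c.ρin := by have := P.ρ_le; have := P.ρ_pos; linarith
  have g5 := bad_mono (A := A) hle (hN z) w n
  have g6 := bad_mono (A := A) hle (aN z) (A.stp z w) n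
  have hc := P.con
  have hc0 : 0 ≤ A.c.c0 ^ (N.r + 1) := pow_nonneg A.c.c0_nonneg _
  have hb := bad_nonneg (A := A) A.c.ρin (.x z) w n
  have g7 : (N.k : ℝ) * A.bad A.c.ρin (hN z) w n ≤
      N.k * (A.c.c0 ^ (N.r + 1) * A.bad A.c.ρin (.x z) w n + δ) :=
    mul_le_mul_of_nonneg_left (g5.trans g4) hk
  have g8 : (N.k : ℝ) * (A.c.c0 ^ (N.r + 1) * A.bad A.c.ρin (.x z) w n) ≤ ρ' / 4 := by
    have e1 : (N.k : ℝ) * A.c.c0 ^ (N.r + 1) ≤ 1 / 4 := by nlinarith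
    have e2 : 0 ≤ (N.k : ℝ) * A.c.c0 ^ (N.r + 1) := mul_nonneg hk hc0
    calc (N.k : ℝ) * (A.c.c0 ^ (N.r + 1) * A.bad A.c.ρin (.x z) w n)
        = (N.k * A.c.c0 ^ (N.r + 1)) * A.bad A.c.ρin (.x z) w n := by ring
      _ ≤ 1 / 4 * ρ' := mul_le_mul e1 g1 hb (by norm_num)
      _ = ρ' / 4 := by ring
  nlinarith

theorem E1_sound {ρ ρ' : ℝ} (P : A.Par ρ) (hρ' : 0 < ρ') (hρ₁ : ρ' ≤ A.c.ρ₁ / 2)
    (hτ : (A.τ : ℝ) < (A.c.θin - 2 * A.c.ρin) * (A.c.θ - 2 * ρ'))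
    {w w' : A.Cfg} (h : A.av (.t .E1) ≤ A.τ)
    (hv : ∀ᶠ n in (A.U : Filter ℕ), (A.I n).sys.Valid (w n))
    (h1 : A.Nr ρ' false w) (h2 : A.Nr ρ' true w') :
    ∀ᶠ n in (A.U : Filter ℕ), w' n = A.stp false w n := by
  refine eq_of_lower hτ h ?_
  filter_upwards [aN_near P hρ' hρ₁ hv h1, h2] with n g1 g2 hne
  have h3 := E1_lower (A.facts n) ((A.obeys n).2 (.t .E1)) g1 g2 hne
  have e : A.c.θ - ρ' - ρ' = A.c.θ - 2 * ρ' := by ring
  rw [e] at h3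
  exact h3

/-! ### Control bits -/

/-- the limits of the averages of the control bits -/
noncomputable def qs (A : BLim N) (i : Fin 3) : ℝ := A.av (.q i)

/-- the limits of the averages of the tests, rounded down to `0` below `τ` -/
noncomputable def Ts (A : BLim N) (k : Tst) : ℝ := if A.av (.t k) < A.τ then 0 else A.av (.t k)

theorem Ts_eq_zero {k : Tst} (h : A.av (.t k) < A.τ) : A.Ts k = 0 := if_pos h

theorem av_le_of_Ts {k : Tst} (h : A.Ts k ≤ A.τ) : A.av (.t k) ≤ A.τ := by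
  unfold Ts at h
  split_ifs at h with hc
  · exact hc.le
  · exact h

theorem ctl {i : Fin 3} {b : Bool} (hτ : 0 < (A.τ : ℝ))
    (h : ∀ y : Ctl, ThOK A.qs y.th → TfOK (A.τ : ℝ) A.Ts y.tf →
      target y.th y.v (y.sg false) (y.sg true) i = b) : A.qs i = if b then 1 else 0 := by
  have h1 : ∀ᶠ ω in A.F, ∀ (j : Fin 3) (l : Fin 5),
      ((((l : ℕ) : ℝ) + 1) / 6 < A.qs j → IsB (A.ε ω.1) true (A.v (.th j l) ω)) ∧
      (A.qs j < (((l : ℕ) : ℝ) + 1) / 6 → IsB (A.ε ω.1) false (A.v (.th j l) ω)) := by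
    rw [eventually_all]
    intro j
    rw [eventually_all]
    intro l
    rcases lt_trichotomy ((((l : ℕ) : ℝ) + 1) / 6) (A.qs j) with hc | hc | hc
    · filter_upwards [th_true (A := A) hc] with ω g
      exact ⟨fun _ => g, fun hc' => absurd hc' hc.le.not_gt⟩
    · exact Eventually.of_forall fun ω => ⟨fun hc' => absurd hc hc'.ne,
        fun hc' => absurd hc.symm hc'.ne⟩
    · filter_upwards [th_false (A := A) hc] with ω g
      exact ⟨fun hc' => absurd hc' hc.le.not_gt, fun _ => g⟩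
  have h2 : ∀ᶠ ω in A.F, ∀ k : Tst, ((A.τ : ℝ) < A.Ts k → IsB (A.ε ω.1) true (A.v (.tf k) ω)) ∧
      (A.Ts k < (A.τ : ℝ) → IsB (A.ε ω.1) false (A.v (.tf k) ω)) := by
    rw [eventually_all]
    intro k
    by_cases hc : A.av (.t k) < A.τ
    · rw [Ts_eq_zero hc]
      filter_upwards [tf_false (A := A) hc] with ω g
      exact ⟨fun hc' => absurd hc' hτ.le.not_gt, fun _ => g⟩
    · have e : A.Ts k = A.av (.t k) := if_neg hc
      rw [e]
      rcases (not_lt.1 hc).eq_or_lt with he | hl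
      · exact Eventually.of_forall fun ω => ⟨fun hc' => absurd he hc'.ne,
          fun hc' => absurd hc' hc⟩
      · filter_upwards [tf_true (A := A) hl] with ω g
        exact ⟨fun _ => g, fun hc' => absurd hc' hc⟩
  have h3 : A.Is (fun _ => b) (.q i) := by
    filter_upwards [h1, h2, A.rel (.q i)] with ω g1 g2 g3
    exact ctl_pt g3 g1 g2 h
  cases b with
  | false => exact av_of_is_false h3
  | true => exact av_of_is_true h3

end BLim

end Vale.Agent.P330.H551
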